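import Vale.Agent.P207.Q.H892.Meas
import Vale.Agent.P207.Q.H916.Fr7
import Mathlib.Topology.ContinuousMap.StoneWeierstrass
import Mathlib.MeasureTheory.Function.ContinuousMapDense
import Mathlib.Geometry.Manifold.BumpFunction

/-!
# P207, block DENS: smooth functions are dense in the continuous functions on the frame bundle

* `dense_of_smF`: a subalgebra of `C(Fr g, ℝ)` which contains all smooth functions is dense.
* `exists_approx`: approximation in `L¹` of functions on the unit tangent bundle by smooth functions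
  on the frame bundle which are invariant under the stabilizer of the first vector.
-/

open scoped Manifold ContDiff ENNReal Topology
open Bundle MeasureTheory Set Filter Topology

noncomputable section

set_option maxSynthPendingDepth 3
set_option linter.unusedSectionVars false

namespace Vale.Agent.P207.Q.H665

open Vale.Agent.P255 (RMetric coefIn Gam Riem IsGeo Metric trans IsMetricOn)
open Vale.Agent.P207.Q.H892 (OG Stab act)

section LFpart

variable {ι : Type} [Fintype ι] {n : ℕ} {M : Type} [TopologicalSpace M] [ChartedSpace (EV n) M]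
  [IsManifold 𝓘(ℝ, EV n) ∞ M]

/-- the function `φ(x) * F(state in the chart at a)` on families of tangent vectors -/
def bmp (a : M) (φ : M → ℝ) (F : St ι n → ℝ) (f : LF ι n M) : ℝ := φ f.pt * F (chF a f)

theorem contDiffAt_symm {φ : M → ℝ} (hφ : ContMDiff 𝓘(ℝ, EV n) 𝓘(ℝ) ∞ φ) (b : M) {u : EV n}
    (hu : u ∈ (chartAt (EV n) b).target) :
    ContDiffAt ℝ ∞ (fun u => φ ((chartAt (EV n) b).symm u)) u := by
  have h1 : ContMDiffOn 𝓘(ℝ, EV n) 𝓘(ℝ, EV n) ∞ (chartAt (EV n) b).symm
      (chartAt (EV n) b).target := contMDiffOn_chart_symm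
  have h2 : ContMDiffOn 𝓘(ℝ, EV n) 𝓘(ℝ) ∞ (fun u => φ ((chartAt (EV n) b).symm u))
      (chartAt (EV n) b).target := hφ.comp_contMDiffOn h1
  exact (contMDiffOn_iff_contDiffOn.1 h2).contDiffAt ((chartAt (EV n) b).open_target.mem_nhds hu)

theorem contDiffAt_bmp (a b : M) {φ : M → ℝ} (hφ : ContMDiff 𝓘(ℝ, EV n) 𝓘(ℝ) ∞ φ)
    (hs : tsupport φ ⊆ (chartAt (EV n) a).source) {F : St ι n → ℝ} (hF : ContDiff ℝ ∞ F)
    {y : St ι n} (hy : y.1 ∈ (chartAt (EV n) b).target) :
    ContDiffAt ℝ ∞ (fun y : St ι n => bmp a φ F (chFs b y)) y := by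
  by_cases ha : (chartAt (EV n) b).symm y.1 ∈ (chartAt (EV n) a).source
  · have h1 : ∀ᶠ z : St ι n in 𝓝 y, z.1 ∈ (chartAt (EV n) b).target ∧
        (chartAt (EV n) b).symm z.1 ∈ (chartAt (EV n) a).source :=
      continuousAt_fst.eventually (P255.eventually_trans (E := EV n) b a hy ha)
    have h2 : ContDiffAt ℝ ∞ (trans (EV n) b a) y.1 := P255.contDiffAt_trans b a hy ha
    have h3 : ContDiffAt ℝ ∞ (fun z : St ι n => trans (EV n) b a z.1) y :=
      h2.comp y contDiffAt_fst
    have h4 : ContDiffAt ℝ ∞ (fun z : St ι n => fderiv ℝ (trans (EV n) b a) z.1) y :=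
      (h2.fderiv_right (m := ∞) (by simp)).comp y contDiffAt_fst
    have hi : ∀ i, ContDiffAt ℝ ∞ (fun y : St ι n => y.2 i) y := fun i =>
      ((ContinuousLinearMap.proj (R := ℝ) (φ := fun _ : ι => EV n) i).contDiff.comp
        contDiff_snd).contDiffAt
    have h5 : ContDiffAt ℝ ∞ (fun z : St ι n => (trans (EV n) b a z.1,
        fun i => fderiv ℝ (trans (EV n) b a) z.1 (z.2 i))) y := by
      refine h3.prodMk ?_
      rw [contDiffAt_pi]
      exact fun i => h4.clm_apply (hi i)
    have h6 : ContDiffAt ℝ ∞ (fun z : St ι n => φ ((chartAt (EV n) b).symm z.1)) y :=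
      ContDiffAt.comp (g := fun u => φ ((chartAt (EV n) b).symm u)) y
        (contDiffAt_symm hφ b hy) contDiffAt_fst
    have h7 := h6.mul (hF.contDiffAt.comp y h5)
    refine h7.congr_of_eventuallyEq ?_
    filter_upwards [h1] with z hz
    simp only [bmp, Function.comp_apply]
    rw [chF_chFs_trans b a hz.1 hz.2]
    rfl
  · have h1 : (chartAt (EV n) b).symm y.1 ∉ tsupport φ := fun h => ha (hs h)
    have h2 : φ =ᶠ[𝓝 ((chartAt (EV n) b).symm y.1)] 0 := notMem_tsupport_iff_eventuallyEq.1 h1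
    have h3 : ContinuousAt (fun z : St ι n => (chartAt (EV n) b).symm z.1) y :=
      ContinuousAt.comp (g := (chartAt (EV n) b).symm) ((chartAt (EV n) b).symm.continuousAt hy)
        continuousAt_fst
    refine (contDiffAt_const (c := (0 : ℝ))).congr_of_eventuallyEq ?_
    filter_upwards [h3.eventually h2] with z hz
    simp only [bmp]
    have h4 : φ (chFs b z).pt = 0 := hz
    rw [h4, zero_mul]

theorem continuous_bmp [Nonempty ι] (a : M) {φ : M → ℝ} (hφ : Continuous φ)
    (hs : tsupport φ ⊆ (chartAt (EV n) a).source) {F : St ι n → ℝ} (hF : Continuous F) :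
    Continuous (bmp a φ F) := by
  rw [continuous_iff_continuousAt]
  intro f
  by_cases ha : f.pt ∈ (chartAt (EV n) a).source
  · exact (hφ.comp continuous_LF_pt).continuousAt.mul
      (ContinuousAt.comp (g := F) hF.continuousAt (continuousAt_chF a ha))
  · have h1 : f.pt ∉ tsupport φ := fun h => ha (hs h)
    have h2 : φ =ᶠ[𝓝 f.pt] 0 := notMem_tsupport_iff_eventuallyEq.1 h1
    refine (continuousAt_const (y := (0 : ℝ))).congr ?_
    filter_upwards [continuous_LF_pt.continuousAt.eventually h2] with z hz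
    simp only [bmp]
    rw [hz]
    simp

theorem chF_injOn (a : M) {f f' : LF ι n M} (hf : f.pt ∈ (chartAt (EV n) a).source)
    (hf' : f'.pt ∈ (chartAt (EV n) a).source) (h : chF a f = chF a f') : f = f' := by
  rw [← chFs_chF a hf, h, chFs_chF a hf']

/-- separation of points -/
theorem exists_bmp [T2Space M] {f f' : LF ι n M} (h : f ≠ f') :
    ∃ (a : M) (φ : M → ℝ) (F : St ι n → ℝ), ContMDiff 𝓘(ℝ, EV n) 𝓘(ℝ) ∞ φ ∧
      tsupport φ ⊆ (chartAt (EV n) a).source ∧ ContDiff ℝ ∞ F ∧ bmp a φ F f ≠ bmp a φ F f' := by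
  classical
  obtain ⟨B⟩ : Nonempty (SmoothBumpFunction 𝓘(ℝ, EV n) f.pt) := inferInstance
  by_cases hp : f.pt = f'.pt
  · have h1 : chF f.pt f ≠ chF f.pt f' := fun h2 =>
      h (chF_injOn f.pt (mem_chart_source _ _) (by rw [← hp]; exact mem_chart_source _ _) h2)
    obtain ⟨l, hl⟩ := SeparatingDual.exists_separating_of_ne (R := ℝ) h1
    refine ⟨f.pt, B, fun y => l y, B.contMDiff, B.tsupport_subset_chartAt_source, l.contDiff, ?_⟩
    simp only [bmp]
    rw [← hp, B.eq_one, one_mul, one_mul]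
    exact hl
  · obtain ⟨B, hB⟩ : ∃ B : SmoothBumpFunction 𝓘(ℝ, EV n) f.pt, tsupport B ⊆ {f'.pt}ᶜ := by
      have := (SmoothBumpFunction.nhds_basis_tsupport (I := 𝓘(ℝ, EV n)) f.pt).mem_iff.1
        (isOpen_compl_singleton.mem_nhds (show f.pt ∈ ({f'.pt}ᶜ : Set M) from hp))
      obtain ⟨B, -, hB⟩ := this
      exact ⟨B, hB⟩
    refine ⟨f.pt, B, fun _ => 1, B.contMDiff, B.tsupport_subset_chartAt_source,
      contDiff_const, ?_⟩
    simp only [bmp, mul_one]
    rw [B.eq_one]
    have h2 : f'.pt ∉ tsupport B := fun h3 => hB h3 rfl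
    rw [image_eq_zero_of_notMem_tsupport h2]
    exact one_ne_zero

end LFpart

variable {n : ℕ} {M : Type} [TopologicalSpace M] [ChartedSpace (EV n) M]
  [IsManifold 𝓘(ℝ, EV n) ∞ M] {g : RMetric (EV n) M}

theorem smF_bmp (a : M) {φ : M → ℝ} (hφ : ContMDiff 𝓘(ℝ, EV n) 𝓘(ℝ) ∞ φ)
    (hs : tsupport φ ⊆ (chartAt (EV n) a).source) {F : St (Fin n) n → ℝ} (hF : ContDiff ℝ ∞ F) :
    SmF (fun p : Fr g => bmp a φ F p.1) := by
  refine SmF.congr_rd (F := fun b z => bmp a φ F (chFs b (gsSt ((mt g).coef b) z)))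
    (fun b y hy => by rw [rd_of_mem _ hy]; rfl) fun b y hy => ?_
  have hm : IsMetricOn ((mt g).coef b) (chartAt (EV n) b).target := (mt g).isMetricOn b
  exact (ContDiffAt.comp (g := fun z : St (Fin n) n => bmp a φ F (chFs b z)) y
    (contDiffAt_bmp a b hφ hs hF hy.1) (contDiffAt_gsSt hm hy)).contDiffWithinAt

variable [CompactSpace M] [T2Space M] [NeZero n]

/-- **Density.** A subalgebra of `C(Fr g, ℝ)` which contains all smooth functions is dense. -/
theorem dense_of_smF (S : Subalgebra ℝ C(Fr g, ℝ)) (hS : ∀ f : C(Fr g, ℝ), SmF f → f ∈ S) :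
    S.topologicalClosure = ⊤ := by
  refine ContinuousMap.subalgebra_topologicalClosure_eq_top_of_separatesPoints S ?_
  intro p q hpq
  obtain ⟨a, φ, F, h1, h2, h3, h4⟩ := exists_bmp (f := p.1) (f' := q.1)
    (fun h => hpq (Subtype.ext h))
  have hc : Continuous (fun p : Fr g => bmp a φ F p.1) :=
    (continuous_bmp a h1.continuous h2 h3.continuous).comp Fr.continuous_val
  exact ⟨_, ⟨⟨_, hc⟩, hS ⟨_, hc⟩ (smF_bmp a h1 h2 h3), rfl⟩, h4⟩

/-! ### the unit tangent bundle -/

/-- a rotation which fixes the first basis vector does not change the first vector -/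
theorem ut_rot {A : OG n} (hA : A ∈ Stab n) (f : Fr g) : (Fr.rot A f).ut 0 = f.ut 0 := by
  have h1 : (Fr.rot A f).e 0 = f.e 0 := by
    rw [H892.rot_e_zero, H892.mem_Stab.1 hA, H892.Lf_apply]
    simp
  apply Subtype.ext
  exact congrArg (fun w : TangentSpace 𝓘(ℝ, EV n) f.pt =>
    (⟨f.pt, w⟩ : TangentBundle 𝓘(ℝ, EV n) M)) h1

/-- composition with the projection to the unit tangent bundle -/
def pull (g : RMetric (EV n) M) : C(UT g, ℝ) →ₐ[ℝ] C(Fr g, ℝ) :=
  ContinuousMap.compRightAlgHom ℝ ℝ ⟨fun f : Fr g => f.ut 0, Fr.continuous_ut 0⟩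

theorem pull_apply (h : C(UT g, ℝ)) (f : Fr g) : pull g h f = h (f.ut 0) := rfl

/-- a unit tangent vector as a family with one member -/
def one1 (p : UT g) : LF Unit n M := ⟨p.pt, fun _ => p.vec⟩

theorem continuous_one1 : Continuous (one1 (g := g)) := by
  rw [isInducing_vec.continuous_iff]
  exact continuous_pi fun _ => continuous_subtype_val

theorem one1_injective : Function.Injective (one1 (g := g)) := by
  intro p q h
  have h1 : (one1 p).vec () = (one1 q).vec () := by rw [h]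
  exact Subtype.ext h1

theorem bmp_one1 (a : M) (φ : M → ℝ) (F : St Unit n → ℝ) (f : Fr g) :
    bmp a φ F (one1 (f.ut 0)) = bmp a φ (fun y => F (y.1, fun _ => y.2 0)) f.1 := rfl

/-- density on the unit tangent bundle -/
theorem dense_ut (S : Subalgebra ℝ C(Fr g, ℝ)) (hS : ∀ f : C(Fr g, ℝ), SmF f → f ∈ S)
    (k : C(UT g, ℝ)) {ε : ℝ} (hε : 0 < ε) :
    ∃ h : C(UT g, ℝ), pull g h ∈ S ∧ ∀ p, |k p - h p| ≤ ε := by
  have := compactSpace_UT g
  suffices hc : (S.comap (pull g)).topologicalClosure = ⊤ by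
    have h1 : k ∈ (S.comap (pull g)).topologicalClosure := by
      rw [hc]
      exact Algebra.mem_top
    obtain ⟨h, hh, hd⟩ := Metric.mem_closure_iff.1 h1 ε hε
    refine ⟨h, hh, fun p => ?_⟩
    rw [dist_eq_norm] at hd
    exact (ContinuousMap.norm_coe_le_norm (k - h) p).trans hd.le
  refine ContinuousMap.subalgebra_topologicalClosure_eq_top_of_separatesPoints _ ?_
  intro p q hpq
  obtain ⟨a, φ, F, h1, h2, h3, h4⟩ := exists_bmp (f := one1 p) (f' := one1 q)
    (fun h => hpq (one1_injective h))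
  have hc : Continuous (fun p : UT g => bmp a φ F (one1 p)) :=
    (continuous_bmp a h1.continuous h2 h3.continuous).comp continuous_one1
  refine ⟨_, ⟨⟨_, hc⟩, ?_, rfl⟩, h4⟩
  refine hS _ ?_
  have h5 : ContDiff ℝ ∞ (fun y : St (Fin n) n => F (y.1, fun _ => y.2 0)) := by
    refine h3.comp (contDiff_fst.prodMk (contDiff_pi.2 fun _ => ?_))
    exact (ContinuousLinearMap.proj (R := ℝ) (φ := fun _ : Fin n => EV n) 0).contDiff.comp
      contDiff_snd
  exact smF_bmp a h1 h2 h5

/-- **Approximation in `L¹`.** -/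
theorem exists_approx (S : Subalgebra ℝ C(Fr g, ℝ)) (hS : ∀ f : C(Fr g, ℝ), SmF f → f ∈ S)
    {m : Measure (UT g)} [IsProbabilityMeasure m] {mP : Measure (Fr g)}
    (hmP : MeasurePreserving (fun f : Fr g => f.ut 0) mP m) {ψ : UT g → ℝ}
    (hψ : Integrable ψ m) {ε : ℝ} (hε : 0 < ε) :
    ∃ f ∈ S, (∀ A ∈ Stab n, ∀ p, f (Fr.rot A p) = f p) ∧
      (∃ h : C(UT g, ℝ), ∀ p : Fr g, f p = h (p.ut 0)) ∧
      Integrable (fun p : Fr g => ψ (p.ut 0)) mP ∧
      ∫ p : Fr g, |ψ (p.ut 0) - f p| ∂mP ≤ ε := by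
  have := compactSpace_UT g
  have := t2Space_UT g
  have := metrizableSpace_UT g
  obtain ⟨k, -, hk, hkc, hki⟩ := hψ.exists_hasCompactSupport_integral_sub_le
    (half_pos hε)
  obtain ⟨h, hh, hd⟩ := dense_ut S hS ⟨k, hkc⟩ (half_pos hε)
  refine ⟨pull g h, hh, fun A hA p => ?_, ⟨h, fun p => rfl⟩,
    hmP.integrable_comp_of_integrable hψ, ?_⟩
  · rw [pull_apply, pull_apply, ut_rot hA]
  · have hhi : Integrable (fun p => h p) m :=
      h.continuous.integrable_of_hasCompactSupport (HasCompactSupport.of_compactSpace _)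
    have h3 : ∫ p : Fr g, |ψ (p.ut 0) - (pull g h) p| ∂mP = ∫ p, |ψ p - h p| ∂m := by
      rw [← hmP.map_eq, integral_map hmP.measurable.aemeasurable]
      · rfl
      · rw [hmP.map_eq]
        exact (hψ.sub hhi).abs.aestronglyMeasurable
    rw [h3]
    calc ∫ p, |ψ p - h p| ∂m ≤ ∫ p, (‖ψ p - k p‖ + ε / 2) ∂m := by
          refine integral_mono (hψ.sub hhi).abs ((hψ.sub hki).norm.add (integrable_const _)) ?_
          intro p
          have h4 : |k p - h p| ≤ ε / 2 := hd p
          have h6 : ψ p - h p = (ψ p - k p) + (k p - h p) := by ring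
          change |ψ p - h p| ≤ ‖ψ p - k p‖ + ε / 2
          rw [h6, Real.norm_eq_abs]
          exact (abs_add_le _ _).trans (by gcongr)
      _ ≤ ε := by
          have h8 : ∫ p, (‖ψ p - k p‖ + ε / 2) ∂m = ∫ p, ‖ψ p - k p‖ ∂m + ∫ _p, ε / 2 ∂m :=
            integral_add (f := fun p => ‖ψ p - k p‖) (hψ.sub hki).norm (integrable_const _)
          rw [h8]
          simp only [integral_const, probReal_univ, one_smul]
          have h7 : ∫ p, ‖ψ p - k p‖ ∂m ≤ ε / 2 := hk
          linarith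

end Vale.Agent.P207.Q.H665
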